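import Mathlib

/-!
# P033: circulant Hadamard matrices are far from products
-/

namespace Vale.Agent.P033H

open Finset

/-- `h` is the first row of a circulant Hadamard matrix of order `n` -/
def IsHadamardRow (n : ℕ) [NeZero n] (h : ZMod n → ℤ) : Prop :=
  (∀ x, h x = 1 ∨ h x = -1) ∧ ∀ τ : ZMod n, τ ≠ 0 → ∑ x, h x * h (x + τ) = 0

/-- the product sequence `x ↦ a (x mod s) * b (x mod t)` -/
def prod (s t : ℕ) (a : ZMod s → ℤ) (b : ZMod t → ℤ) (x : ZMod (s * t)) : ℤ :=
  a (ZMod.castHom (dvd_mul_right s t) (ZMod s) x) * b (ZMod.castHom (dvd_mul_left t s) (ZMod t) x)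

theorem odd_sum (s : ℕ) [NeZero s] (hs : Odd s) (a : ZMod s → ℤ) (ha : ∀ x, a x = 1 ∨ a x = -1)
    (τ : ZMod s) : 1 ≤ |∑ x, a x * a (x + τ)| := by
  have h3 : ∑ x, a x * a (x + τ) ≠ 0 := by
    intro h
    have h1 : ((∑ x, a x * a (x + τ) : ℤ) : ZMod 2) = 0 := by rw [h]; rfl
    rw [Int.cast_sum] at h1
    have h2 : ∀ x, ((a x * a (x + τ) : ℤ) : ZMod 2) = 1 := by
      intro x
      rcases ha x with h | h <;> rcases ha (x + τ) with h' | h' <;> rw [h, h'] <;> decide
    simp only [h2] at h1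
    rw [Finset.sum_const, Finset.card_univ, ZMod.card, nsmul_eq_mul, mul_one] at h1
    rw [ZMod.natCast_eq_zero_iff] at h1
    rcases hs with ⟨k, hk⟩
    omega
  exact Int.one_le_abs h3

theorem main (s t : ℕ) [NeZero s] [NeZero t] (hst : s.Coprime t) (hs : Odd s) (hs1 : 1 < s)
    (h : ZMod (s * t) → ℤ) (hh : IsHadamardRow (s * t) h)
    (a : ZMod s → ℤ) (b : ZMod t → ℤ) (ha : ∀ x, a x = 1 ∨ a x = -1)
    (hb : ∀ x, b x = 1 ∨ b x = -1) :
    t ≤ 4 * (univ.filter fun x => h x ≠ prod s t a b x).card := by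
  classical
  let e := ZMod.chineseRemainder hst
  have he1 : ∀ x, (e x).1 = ZMod.castHom (dvd_mul_right s t) (ZMod s) x := fun x => by
    have h1 : (RingHom.fst (ZMod s) (ZMod t)).comp e.toRingHom =
        ZMod.castHom (dvd_mul_right s t) (ZMod s) := Subsingleton.elim _ _
    exact DFunLike.congr_fun h1 x
  have he2 : ∀ x, (e x).2 = ZMod.castHom (dvd_mul_left t s) (ZMod t) x := fun x => by
    have h1 : (RingHom.snd (ZMod s) (ZMod t)).comp e.toRingHom =
        ZMod.castHom (dvd_mul_left t s) (ZMod t) := Subsingleton.elim _ _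
    exact DFunLike.congr_fun h1 x
  let τ : ZMod (s * t) := e.symm (1, 0)
  have heτ : e τ = (1, 0) := e.apply_symm_apply _
  have hτ : τ ≠ 0 := by
    intro h0
    have h1 : e τ = 0 := by rw [h0, map_zero]
    rw [heτ] at h1
    have h2 : (1 : ZMod s) = 0 := congrArg Prod.fst h1
    have : Fact (1 < s) := ⟨hs1⟩
    exact one_ne_zero h2
  set p := prod s t a b with hp
  have hpe : ∀ x, p x = a (e x).1 * b (e x).2 := fun x => by
    rw [he1, he2]; rfl
  have hp1 : ∀ x, p x = 1 ∨ p x = -1 := by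
    intro x
    rw [hpe]
    rcases ha (e x).1 with h | h <;> rcases hb (e x).2 with h' | h' <;> rw [h, h'] <;> simp
  -- autocorrelation of the product
  have hRp : ∑ x, p x * p (x + τ) = (∑ u, a u * a (u + 1)) * t := by
    have h1 : ∑ x, p x * p (x + τ) =
        ∑ y : ZMod s × ZMod t, (a y.1 * b y.2) * (a (y.1 + 1) * b y.2) := by
      refine Fintype.sum_equiv e.toEquiv _ _ fun x => ?_
      show p x * p (x + τ) = (a (e x).1 * b (e x).2) * (a ((e x).1 + 1) * b (e x).2)
      rw [hpe, hpe, map_add, heτ, Prod.fst_add, Prod.snd_add, add_zero]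
    rw [h1, Fintype.sum_prod_type, Finset.sum_mul]
    refine Finset.sum_congr rfl fun u _ => ?_
    have h2 : ∀ v : ZMod t, (a u * b v) * (a (u + 1) * b v) = a u * a (u + 1) := by
      intro v
      rcases hb v with h | h <;> rw [h] <;> ring
    simp only [h2]
    rw [Finset.sum_const, Finset.card_univ, ZMod.card, nsmul_eq_mul, mul_comm]
  -- comparison
  set D := univ.filter fun x => h x ≠ p x with hD
  have hcmp : |∑ x, p x * p (x + τ)| ≤ 4 * D.card := by
    have h1 : ∑ x, p x * p (x + τ) = ∑ x, (p x * p (x + τ) - h x * h (x + τ)) := by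
      rw [Finset.sum_sub_distrib, hh.2 τ hτ, sub_zero]
    rw [h1]
    refine (Finset.abs_sum_le_sum_abs _ _).trans ?_
    have h2 : ∀ x, |p x * p (x + τ) - h x * h (x + τ)| ≤
        2 * (if h x ≠ p x then 1 else 0) + 2 * (if h (x + τ) ≠ p (x + τ) then 1 else 0) := by
      intro x
      rcases hp1 x with h3 | h3 <;> rcases hp1 (x + τ) with h4 | h4 <;>
        rcases hh.1 x with h5 | h5 <;> rcases hh.1 (x + τ) with h6 | h6 <;>
        rw [h3, h4, h5, h6] <;> decide
    refine (Finset.sum_le_sum fun x _ => h2 x).trans ?_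
    rw [Finset.sum_add_distrib, ← Finset.mul_sum, ← Finset.mul_sum]
    have h3 : ∑ x, (if h x ≠ p x then (1 : ℤ) else 0) = D.card := by
      rw [Finset.sum_boole]
    have h4 : ∑ x, (if h (x + τ) ≠ p (x + τ) then (1 : ℤ) else 0) = D.card := by
      rw [← h3]
      exact Fintype.sum_equiv (Equiv.addRight τ) _ _ fun x => rfl
    rw [h3, h4]
    linarith
  have hodd := odd_sum s hs a ha 1
  rw [hRp, abs_mul, Nat.abs_cast] at hcmp
  have hfin : (t : ℤ) ≤ 4 * D.card := by
    have ht : (0 : ℤ) ≤ t := by positivity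
    nlinarith
  exact_mod_cast hfin

end Vale.Agent.P033H
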